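import Crest.Agent.X212.Dr9.Hol

/-!
# Row 212, SW-DRIFT (helper9): the holonomy moves at most linearly
-/

set_option autoImplicit false
set_option linter.unusedSectionVars false
noncomputable section
open MeasureTheory Set Function Filter

namespace Crest.Agent.X212.Dr9
open An Sw Sw.En3 Sep15.S
open Nd18 (Jv)

theorem abs_sub_le_lint {J : Set ℝ} (hc : J.OrdConnected) {h h' : ℝ → ℝ}
    (hd : ∀ t ∈ J, HasDerivAt h (h' t) t) {t t' : ℝ} (ht : t ∈ J) (ht' : t' ∈ J) :
    ENNReal.ofReal |h t - h t'| ≤ ∫⁻ s in uIcc t t', ENNReal.ofReal |h' s| := by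
  have h1 := hc.uIcc_subset ht ht'
  have h2 := addHaar_image_le_lintegral_abs_det_fderiv volume measurableSet_uIcc
    fun s hs => (hd s (h1 hs)).hasDerivWithinAt.hasFDerivWithinAt
  simp only [ContinuousLinearMap.det_toSpanSingleton] at h2
  rw [abs_sub_comm, ← Real.volume_interval]
  exact (measure_mono (intermediate_value_uIcc fun s hs =>
    (hd s (h1 hs)).continuousAt.continuousWithinAt)).trans h2

variable {κ lam ν : Type} [Fintype κ] [Fintype lam] [Fintype ν] [DecidableEq ν] {e : En3 κ lam ν}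

theorem holD (he : e.OK) (C : ℝ) : ∃ C' : ℝ, ∀ (c : e.ZC) p p', e.cyl.AdmOn c (univ ×ˢ Jv p p') →
    (∀ x ∈ univ ×ˢ Jv p p', ‖e.cyl.eC c x‖ ≤ C) → en c (Jv p p') ≤ ENNReal.ofReal C →
    ∀ t ∈ Jv p p', ∀ t' ∈ Jv p p', |hol (sl c t) - hol (sl c t')| ≤ C' * (1 + |t - t'|) := by
  obtain ⟨K, K0, h2⟩ := hol_der_le he C
  refine ⟨K * (|C| + 1), fun c p p' ha hC hE t ht t' ht' => ?_⟩
  have h1 := (ordConnected_Jv p p').uIcc_subset ht ht'
  have h3 := (abs_sub_le_lint (ordConnected_Jv p p')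
    (fun t ht => hol_der he (isOpen_Jv p p') ha ht) ht ht').trans
    (setLIntegral_mono' measurableSet_uIcc fun s hs => (ENNReal.ofReal_le_ofReal (h2 c s
      (adm_sl (isOpen_Jv p p') ha (h1 hs)) fun y => hC _ ⟨trivial, h1 hs⟩)).trans_eq
      ((ENNReal.ofReal_mul K0).trans (congrArg _
        (ENNReal.ofReal_add zero_le_one (gn_nonneg he.cyl.w _)))))
  rw [lintegral_const_mul' _ _ ENNReal.ofReal_ne_top, lintegral_add_left measurable_const,
    setLIntegral_const, Real.volume_interval, ENNReal.ofReal_one, one_mul] at h3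
  have h4 := h3.trans (mul_le_mul_right (add_le_add_right ((lintegral_mono_set h1).trans
    (hE.trans (ENNReal.ofReal_le_ofReal (le_abs_self C)))) _) _)
  rw [← ENNReal.ofReal_add (abs_nonneg _) (abs_nonneg _), ← ENNReal.ofReal_mul K0,
    ENNReal.ofReal_le_ofReal_iff (by positivity), abs_sub_comm t'] at h4
  nlinarith [mul_nonneg K0 (mul_nonneg (abs_nonneg C) (abs_nonneg (t - t')))]

end Crest.Agent.X212.Dr9
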