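import Crest.Agent.X212.Sw.Lv
import Crest.Agent.X212.Pb50.Cyl
import Crest.Agent.X212.Sep15.Mono

/-!
# Row 212, SW-DRIFT (helper9): the holonomy parameter along a cylinder
-/

set_option autoImplicit false
set_option linter.unusedSectionVars false
noncomputable section
open scoped Manifold ContDiff Topology InnerProductSpace
open MeasureTheory Set Function Filter

namespace Crest.Agent.X212.Dr9
open An Sw Sob92 Cyf70 Sw.En3 Pb50 Sep15.S
open Wz78 (SA curv)
open Nd18 (ca)

variable {κ lam ν : Type} [Fintype κ] [Fintype lam] [Fintype ν] [DecidableEq ν]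

section bg
variable {E : Type} [NormedAddCommGroup E] [NormedSpace ℝ E] [FiniteDimensional ℝ E]
  [MeasurableSpace E] [BorelSpace E]
  {HM : Type} [TopologicalSpace HM] {I : ModelWithCorners ℝ E HM}
  {M : Type} [TopologicalSpace M] [ChartedSpace HM M] [IsManifold I ∞ M] [MeasurableSpace M]
  {nc : ℕ} {b : Bg I M κ lam ν nc} {c : Sw.Cfg M κ ν} {x : M}

theorem jp_jp (hb : b.OK) (x : M) : ⟪hsL (b.jp x), hsL (b.jp x)⟫_ℝ = 8 := by
  have h : Skw (b.jp x) := fun v w => by
    rw [Bg.jp, mul_apply_eq_comp, hb.m.Jsk, hb.m.psym x trivial, hb.m.Jp x trivial,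
      mul_apply_eq_comp]
  have e : b.jp x * b.jp x = -b.m.p x := by
    rw [Bg.jp, mul_assoc, ← mul_assoc (b.m.p x), ← Jp hb, mul_assoc, hb.m.pidem x trivial,
      ← mul_assoc, hb.m.Jsq, neg_one_mul]
  rw [Wz78.inner_hsL_skw h, e, map_neg, neg_neg, Wz78.trE_eq, hb.m.prk x trivial]

/-- `fc c = fc 0 + d a` -/
theorem fc_eq (hb : b.OK) (h : ∀ i, SA I (c.a i) x) (i j : Option κ) : b.fc c x (i, j) =
    (1 / 8 : ℝ) * ⟪hsL (b.jp x), hsL (curv I b.F.e b.F.c b.A i j x)⟫_ℝ +
      (b.F.D i (c.a j) x - b.F.D j (c.a i) x - ∑ k, b.F.c i j k x * c.a k x) := by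
  simp only [Bg.fc, curv_W hb h, map_add, map_smul, inner_add_right, real_inner_smul_right, jp_jp hb]
  ring

theorem P_p2 (hb : b.OK) (η : F2 κ) (i l : Option κ) :
    ∑ k, b.B.P l k x * b.p2 x η (i, k) = b.p2 x η (i, l) := by
  simp only [Bg.p2, idx_ap, Finset.mul_sum, ← mul_assoc]
  rw [Finset.sum_comm]
  refine Finset.sum_congr rfl fun t _ => ?_
  rw [← Finset.sum_mul]
  congr 1
  simp only [Base.sd, Base.a2, Base.st, hb.B.o12 i]
  rw [← (hb.B.pr x).idem l t.2, ← (hb.B.pr x).idem l t.1, ← hb.B.oP l i t.1 t.2 x]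
  simp only [Finset.mul_sum, Finset.sum_div, ← Finset.sum_sub_distrib, ← Finset.sum_neg_distrib,
    ← Finset.sum_add_distrib]
  exact Finset.sum_congr rfl fun _ _ => by ring

theorem th_exp {ι : Type} [Fintype ι] (F : Pre I M ι) {χ : M → ℝ} (h : SA I χ x) (i : ι) :
    th F (fun y => Complex.exp (χ y * Complex.I)) i x = F.D i χ x := by
  have h1 := (((Complex.ofRealCLM.hasDerivAt (x := χ x)).mul_const Complex.I).cexp).hasFDerivAt
  have h2 : F.D i (fun y => Complex.exp (χ y * Complex.I)) x = _ := dv_comp h.md h1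
  have h3 := star_mul_one (Complex.norm_exp_ofReal_mul_I (χ x))
  rw [th, h2]
  simp only [Complex.ofRealCLM_apply, ContinuousLinearMap.toSpanSingleton_apply, mul_smul_comm,
    ← mul_assoc, h3]
  simp [Pre.D_def]

variable [I.Boundaryless] [T2Space M] [BorelSpace M] [SecondCountableTopology M] [CompactSpace M]

theorem der_sl {ι : Type} [Fintype ι] (F : Pre I M ι) {J : Set ℝ} (hJ : IsOpen J) {g : M × ℝ → ℝ}
    (hg : ∀ y, ∀ t ∈ J, SA (IC I) g (y, t)) {t : ℝ} (ht : t ∈ J) :
    HasDerivAt (fun s => ∫ y, g (y, s) ∂F.μ) (∫ y, (cylP F).D none g (y, t) ∂F.μ) t := by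
  have h1 := fun y t ht => Pb50.sa_D (cylP F) (hg y t ht) none
  have i : ∀ {g : M × ℝ → ℝ}, (∀ y, ∀ t ∈ J, SA (IC I) g (y, t)) → ∀ t ∈ J,
      Integrable (fun y => g (y, t)) F.μ := fun hg t ht =>
    (continuous_iff_continuousAt.2 fun y => (hg y t ht).continuousAt.comp_of_eq
      (f := fun y => (y, t)) (by fun_prop) rfl).integrable_of_hasCompactSupport (.of_compactSpace _)
  obtain ⟨K, hK, h2, h3⟩ := exists_compact_subset hJ ht
  obtain ⟨C, hC⟩ := (isCompact_univ.prod hK).exists_bound_of_continuousOn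
    fun x hx => (h1 x.1 x.2 (h3 hx.2)).continuousAt.continuousWithinAt
  refine (hasDerivAt_integral_of_dominated_loc_of_deriv_le (s := K)
    (F' := fun s y => (cylP F).D none g (y, s)) (bound := fun _ => C)
    (mem_interior_iff_mem_nhds.1 h2) ((hJ.eventually_mem ht).mono fun s hs => (i hg s hs).1)
    (i hg t ht) (i h1 t ht).1 (.of_forall fun y s hs => hC _ ⟨trivial, hs⟩)
    (continuous_const.integrable_of_hasCompactSupport (.of_compactSpace _))
    (.of_forall fun y s hs => ?_)).2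
  rw [D_none_at F (hg y s (h3 hs)).md]
  exact (diff_slice_snd (hg y s (h3 hs)).md).hasDerivAt

end bg

variable {e : En3 κ lam ν} {c : e.ZC} {s : ℝ} {v v' : e.YC}

theorem curv_ca (he : e.OK) (i j : Option κ) (y : e.Y.M) (s : ℝ) :
    curv _ e.cyl.F.e e.cyl.F.c e.cyl.A i j (y, s) = curv _ e.cyl.F.e e.cyl.F.c e.cyl.A i j (y, 0) := by
  have hA : ∀ k, Sm e.Y.I (e.A k) := fun k => sm_slice_fst (fun x => he.cyl.cc.sm (some k) x) 0
  have h1 : ∀ i, e.cyl.A i (y, s) = e.cyl.A i (y, 0) := fun i => by cases i <;> rfl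
  have h2 : ∀ k, e.cyl.F.c i j k (y, s) = e.cyl.F.c i j k (y, 0) := fun k => by
    cases i <;> cases j <;> cases k <;> rfl
  have h3 : ∀ i j, dv _ (e.cyl.F.e i) (e.cyl.A j) (y, s) = dv _ (e.cyl.F.e i) (e.cyl.A j) (y, 0) := by
    rintro i (_ | j)
    · exact (congrFun (dv_const _) _).trans (congrFun (dv_const _) (y, 0)).symm
    · cases i with
      | none =>
        exact (congrFun (D_none_fst e.D.F.toPre (hA j)) _).trans
          (congrFun (D_none_fst e.D.F.toPre (hA j)) (y, 0)).symm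
      | some i =>
        exact (congrFun (D_some_fst e.D.F.toPre (hA j) i) _).trans
          (congrFun (D_some_fst e.D.F.toPre (hA j) i) (y, 0)).symm
  simp only [curv, h1, h2, h3]

theorem p2_inv (y : e.Y.M) (s : ℝ) : e.cyl.p2 (y, s) = e.cyl.p2 (y, 0) := by
  have h : ∀ a b, e.cyl.B.P a b (y, s) = e.cyl.B.P a b (y, 0) := fun a b => by
    cases a <;> cases b <;> rfl
  refine congrArg (idx · _) (funext₂ fun a b => ?_)
  simp only [Base.sd, Base.a2, h]
  rfl

/-- the `dt`-components of the curvature equation -/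
theorem split (he : e.OK) (h : ∀ i y, SA (IC e.Y.I) (c.a i) (y, s)) (y : e.Y.M) (k : κ) :
    2 * (e.cyl.eC c (y, s) (none, some k) - e.cyl.eC (fz (sl c s)) (y, 0) (none, some k)) =
      ∑ l, e.D.F.P k l y *
        (e.D.Z.D none (c.a (some l)) (y, s) - e.D.F.D l (fun z => c.a none (z, s)) y) := by
  have h0 : ∀ l, Sm e.Y.I ((sl c s).a l) := fun l => sm_sl (h (some l))
  have h1 : ∀ i, SA (IC e.Y.I) ((fz (sl c s)).a i) (y, 0) := by
    rintro (_ | l)
    exacts [contMDiffAt_const, sm_fst (h0 l) _]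
  have d0 : ∀ i, e.cyl.F.D i ((fz (sl c s)).a none) (y, 0) = 0 := fun i => congrFun (dv_const _) _
  have d1 : ∀ l, e.cyl.F.D none ((fz (sl c s)).a (some l)) (y, 0) = 0 := fun l =>
    congrFun (D_none_fst _ (h0 l)) _
  have d2 : ∀ i l, e.cyl.F.D (some i) ((fz (sl c s)).a (some l)) (y, 0) =
      e.cyl.F.D (some i) (c.a (some l)) (y, s) := fun i l =>
    (congrFun (D_some_fst _ (h0 l) i) _).trans (D_some_at _ (h _ y).md i).symm
  have d3 : ∀ l, e.cyl.F.D (some l) (c.a none) (y, s) = e.D.F.D l (fun z => c.a none (z, s)) y :=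
    fun l => D_some_at _ (h _ y).md l
  have c1 : ∀ j l x, e.cyl.F.c none j l x = 0 := fun j l x => by cases j <;> cases l <;> rfl
  have c2 : ∀ j l x, e.cyl.F.c (some j) none l x = 0 := fun j l x => by cases l <;> rfl
  have c3 : ∀ j l x, e.cyl.F.c (some j) (some l) none x = 0 := fun j l x => rfl
  have c4 : ∀ i j l, e.cyl.F.c (some i) (some j) (some l) (y, 0) *
      (fz (sl c s)).a (some l) (y, 0) = e.cyl.F.c (some i) (some j) (some l) (y, s) *
        c.a (some l) (y, s) := fun _ _ _ => rfl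
  have c5 : e.cyl.jp (y, s) = e.cyl.jp (y, 0) := rfl
  have o1 : ∀ a b, e.D.o none a none b y = 0 := fun a b => by
    linarith [show e.D.o none a none b y = -e.D.o a none none b y from he.cyl.B.o12 _ _ _ _ (y, 0),
      show e.D.o a none none b y = -e.D.o a none none b y from he.cyl.B.o23 _ _ _ _ (y, 0)]
  have o2 : ∀ a b, e.D.o none a b none y = 0 := fun a b => by
    linarith [show e.D.o none a b none y = -e.D.o none a none b y from he.cyl.B.o34 _ _ _ _ (y, 0),
      o1 a b]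
  have e1 : e.cyl.eC c (y, s) (none, some k) - e.cyl.eC (fz (sl c s)) (y, 0) (none, some k) =
      e.cyl.p2 (y, 0) (e.cyl.fc c (y, s) - e.cyl.fc (fz (sl c s)) (y, 0)) (none, some k) := by
    rw [← PiLp.sub_apply, Bg.eC, Bg.eC, p2_inv y s,
      show e.cyl.om (y, s) = e.cyl.om (y, 0) from rfl, show e.cyl.qd (y, s) = e.cyl.qd (y, 0) from rfl,
      show (fz (sl c s)).Φ (y, 0) = c.Φ (y, s) from rfl, sub_sub_sub_cancel_right, ← map_sub,
      sub_sub_sub_cancel_right]
  rw [e1, Bg.p2, idx_ap, Fintype.sum_prod_type]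
  simp only [PiLp.sub_apply, fc_eq he.cyl (fun i => h i y), fc_eq he.cyl h1, curv_ca he _ _ y s,
    Fintype.sum_option, d0, d1, d2, d3, c1, c2, c3, c4, c5, add_sub_add_left_eq_sub, sub_self,
    zero_mul, mul_zero, Finset.sum_const_zero, add_zero, sub_zero, zero_add]
  have s1 : ∀ l, e.cyl.B.sd (y, 0) (none, some k) (none, some l) = e.D.F.P k l y / 4 := fun l => by
    simp only [Base.sd, Base.a2, Base.st, En3.cyl, Nd18.YD.B, cP, o1]; ring
  have s2 : ∀ l, e.cyl.B.sd (y, 0) (none, some k) (some l, none) = -e.D.F.P k l y / 4 := fun l => by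
    simp only [Base.sd, Base.a2, Base.st, En3.cyl, Nd18.YD.B, cP, o2]; ring
  simp only [s1, s2, ← Finset.sum_add_distrib, Finset.mul_sum]
  refine Finset.sum_congr rfl fun l _ => ?_
  rw [show e.D.Z.D none (c.a (some l)) (y, s) = e.cyl.F.D none (c.a (some l)) (y, s) from rfl]
  ring

theorem zeta_P (he : e.OK) (y : e.Y.M) (l : κ) :
    ∑ k, e.D.F.P l k y * e.ζ y (none, some k) = e.ζ y (none, some l) := by
  have := P_p2 he.cyl (x := (y, 0)) (e.ζ y) none (some l)
  rw [he.pζ, Fintype.sum_option] at this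
  exact ((congrArg (· + _) (zero_mul _)).trans (zero_add _)).symm.trans this

theorem sm_ζ (he : e.OK) (k : κ) : Sm e.Y.I fun y => e.ζ y (none, some k) :=
  fun y => sa_ev (he.sζ y) _

theorem int_ζ (he : e.OK) {a : κ → e.Y.M → ℝ} (h : ∀ k, Sm e.Y.I (a k)) :
    Integrable (fun y => 4 * ∑ k, e.ζ y (none, some k) * a k y) e.D.F.μ :=
  integrable_Y (continuous_const.mul (continuous_finsetSum _ fun k _ =>
    (sm_ζ he k).continuous.mul (h k).continuous))

/-- the derivative of the holonomy parameter -/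
theorem hol_der (he : e.OK) {J : Set ℝ} (hJ : IsOpen J) (h : e.cyl.AdmOn c (univ ×ˢ J)) (hs : s ∈ J) :
    HasDerivAt (fun t => hol (sl c t)) (∫ y, 4 * ∑ k, e.ζ y (none, some k) *
      (2 * (e.cyl.eC c (y, s) + deriv e.f (hol (sl c s)) • e.ζ y) (none, some k) -
        (gr (sl c s)).a k y) ∂e.D.F.μ) s := by
  have h1 : ∀ i y, ∀ t ∈ J, SA (IC e.Y.I) (c.a i) (y, t) := fun i y t ht =>
    (h.sa i).contMDiffAt ((isOpen_univ.prod hJ).mem_nhds ⟨trivial, ht⟩)
  have h2 : ∀ y, ∀ t ∈ J, SA (IC e.Y.I)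
      (fun x => 4 * ∑ k, e.ζ x.1 (none, some k) * c.a (some k) x) (y, t) := fun y t ht =>
    SA.mul contMDiffAt_const (SA.sum _ fun k _ => SA.mul (sm_fst (sm_ζ he k) _) (h1 _ y t ht))
  have sχ : Sm e.Y.I fun z => c.a none (z, s) := sm_sl fun y => h1 _ y s hs
  have i1 := int_ζ he fun k => sm_sl fun y => Pb50.sa_D e.D.Z.toPre (h1 (some k) y s hs) none
  have i2 := int_ζ he fun k => e.D.F.sm_D sχ k
  have e2 := integral_sub i1 i2
  rw [integral_const_mul 4 fun y => ∑ k, _ * e.D.F.D k _ y, he.clζ _ sχ, mul_zero, sub_zero] at e2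
  refine (der_sl e.D.F.toPre hJ h2 hs).congr_deriv (((integral_congr_ae (.of_forall fun y => ?_)).trans
    e2).trans (integral_congr_ae (.of_forall fun y => ?_))).symm
  · have e3 := Finset.sum_congr rfl fun k (_ : k ∈ Finset.univ) =>
      congrArg (e.ζ y (none, some k) * ·) (split he (fun i y => h1 i y s hs) y k)
    simp only [Finset.mul_sum, ← mul_assoc] at e3
    rw [Finset.sum_comm] at e3
    simp only [← Finset.sum_mul, mul_comm (e.ζ y _) (e.D.F.P _ _ y), e.D.F.P_symm _ _ y] at e3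
    simp only [zeta_P he] at e3
    simp only [← mul_sub, ← Finset.sum_sub_distrib, ← e3, gr, PiLp.add_apply]
    exact congrArg _ (Finset.sum_congr rfl fun _ _ => by ring)
  · simp only [D_none_at _ (h2 y s hs).md]
    refine ((HasDerivAt.fun_sum fun k _ => HasDerivAt.const_mul _ ?_).const_mul 4).deriv.symm
    rw [show e.D.Z.D none _ (y, s) = _ from D_none_at _ (h1 _ y s hs).md]
    exact (diff_slice_snd (h1 _ y s hs).md).hasDerivAt

theorem hol_der_le (he : e.OK) (C : ℝ) : ∃ K, 0 ≤ K ∧ ∀ (c : e.ZC) (s : ℝ), e.cyl.Adm (fz (sl c s)) →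
    (∀ y, ‖e.cyl.eC c (y, s)‖ ≤ C) → |∫ y, 4 * ∑ k, e.ζ y (none, some k) *
      (2 * (e.cyl.eC c (y, s) + deriv e.f (hol (sl c s)) • e.ζ y) (none, some k) -
        (gr (sl c s)).a k y) ∂e.D.F.μ| ≤ K * (1 + gn (sl c s)) := by
  obtain ⟨Z, hZ⟩ := he.sζ.continuous.bounded_above_of_compact_support (.of_compactSpace _)
  obtain ⟨B, hB⟩ := he.bf 1
  simp only [iteratedDeriv_one] at hB
  have m0 : 0 ≤ e.D.F.μ.real univ := measureReal_nonneg
  obtain ⟨A, a0, hA⟩ : ∃ A, 0 ≤ A ∧ A = Fintype.card κ * (4 * |Z| * (2 * (|C| + |B| * |Z|) + 1)) :=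
    ⟨_, by positivity, rfl⟩
  refine ⟨e.D.F.μ.real univ * A + 2 * |Z|, by positivity, fun c s hv hC => ?_⟩
  have i := (integrable_const A).add ((integrable_gn he hv).const_mul (2 * |Z|))
  rw [← Real.norm_eq_abs]
  have g0 := gn_nonneg he.cyl.w (sl c s)
  refine (norm_integral_le_of_norm_le i (.of_forall fun y => ?_)).trans ?_
  · have z1 := fun k => (PiLp.norm_apply_le (e.ζ y) (none, some k)).trans
      ((hZ y).trans (le_abs_self Z))
    have z2 : ∀ k, |(e.cyl.eC c (y, s) + deriv e.f (hol (sl c s)) • e.ζ y) (none, some k)| ≤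
        |C| + |B| * |Z| := fun k => (PiLp.norm_apply_le _ _).trans ((norm_add_le _ _).trans
      (add_le_add ((hC y).trans (le_abs_self C)) ((norm_smul _ _).trans_le (mul_le_mul
        ((hB _).trans (le_abs_self B)) ((hZ y).trans (le_abs_self Z)) (norm_nonneg _) (abs_nonneg B)))))
    have z3 : 0 ≤ e.w * ⟪(gr (sl c s)).Φ y, (gr (sl c s)).Φ y⟫_ℝ :=
      mul_nonneg he.cyl.w real_inner_self_nonneg
    have z4 := (norm_sum_le _ _).trans (Finset.sum_le_sum fun k (_ : k ∈ Finset.univ) =>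
      (norm_mul _ _).trans_le (mul_le_mul (z1 k) (show ‖2 * (e.cyl.eC c (y, s) +
        deriv e.f (hol (sl c s)) • e.ζ y) (none, some k) - (gr (sl c s)).a k y‖ ≤
          2 * (|C| + |B| * |Z|) + 1 + (gr (sl c s)).a k y * (gr (sl c s)).a k y from ?_)
        (norm_nonneg _) (abs_nonneg Z)))
    · simp only [Finset.sum_add_distrib, ← Finset.mul_sum, Finset.sum_const,
        Finset.card_univ, nsmul_eq_mul] at z4
      rw [norm_mul, Real.norm_of_nonneg (by norm_num : (0 : ℝ) ≤ 4), Pi.add_apply, hA]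
      nlinarith [mul_nonneg (abs_nonneg Z) z3]
    · have := abs_le.1 (z2 k)
      rw [Real.norm_eq_abs, abs_le]
      constructor <;> nlinarith [sq_nonneg ((gr (sl c s)).a k y - 1), sq_nonneg ((gr (sl c s)).a k y + 1)]
  · rw [integral_add' (integrable_const A) ((integrable_gn he hv).const_mul _), integral_const,
      integral_const_mul, smul_eq_mul]
    change _ + _ * gn (sl c s) ≤ _
    nlinarith [mul_nonneg (mul_nonneg m0 a0) g0, abs_nonneg Z]

/-- the holonomy parameter is affine under gauge transformations -/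
theorem hol_act (he : e.OK) (hv : e.cyl.Adm (fz v)) {g : e.Y.M → ℂ} (hg : Sm e.Y.I g)
    (h : fz v' = e.cyl.act (fun x => g x.1) (fz v)) : hol v' =
      hol v - ∫ y, 4 * ∑ k, e.ζ y (none, some k) * th e.D.F.toPre g k y ∂e.D.F.μ := by
  rw [hol, hol, ← integral_sub (int_ζ he (sm_a hv)) (int_ζ he fun k y => sa_th _ (hg y) k)]
  refine integral_congr_ae (.of_forall fun y => ?_)
  have : ∀ k, v'.a k y = v.a k y - th e.D.F.toPre g k y := fun k =>
    (congrArg (fun c : e.ZC => c.a (some k) (y, 0)) h).trans (congrArg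
      (fun t => v.a k y - (star (g y) * t).im) (congrFun (D_some_fst e.D.F.toPre hg k) (y, 0)))
  simp only [this, mul_sub, Finset.sum_sub_distrib]

theorem hol_eq0 (he : e.OK) (hv : e.cyl.Adm (fz v)) (h : Eq0 v v') : hol v' = hol v := by
  obtain ⟨χ, hχ, h⟩ := h
  have hg : Sm e.Y.I fun y => Complex.exp (χ y * Complex.I) :=
    (Complex.contDiff_exp.comp (Complex.ofRealCLM.contDiff.mul contDiff_const)).contMDiff.comp hχ
  rw [hol_act he hv hg h]
  simp only [th_exp _ (hχ _), integral_const_mul, he.clζ χ hχ, mul_zero, sub_zero]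

theorem hol_lip (he : e.OK) : ∃ K, 0 ≤ K ∧ ∀ v v' : e.YC, e.cyl.Adm (fz v) → e.cyl.Adm (fz v') →
    |hol v - hol v'| ≤ K * dist 0 v v' := by
  have n0 := fun k => nrm_nonneg (F := e.D.F.toPre) 0 fun y => e.ζ y (none, some k)
  refine ⟨4 * ∑ k, e.D.F.nrm 0 fun y => e.ζ y (none, some k), by
    have := Finset.sum_nonneg fun k (_ : k ∈ Finset.univ) => n0 k; positivity, fun v v' hv hv' => ?_⟩
  have s : ∀ k, Sm e.Y.I (v.a k - v'.a k) := fun k => (sm_a hv k).sub (sm_a hv' k)
  have h1 : hol v - hol v' = 4 * ∑ k, e.D.F.ip 0 (v.a k - v'.a k) fun y => e.ζ y (none, some k) := by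
    rw [hol, hol, ← integral_sub (int_ζ he (sm_a hv)) (int_ζ he (sm_a hv'))]
    simp only [Pre.ip]
    rw [← integral_finsetSum _ fun k _ => e.D.F.integrable_inner (s k).continuous
      (.of_compactSpace _) (sm_ζ he k).continuous, ← integral_const_mul]
    refine integral_congr_ae (.of_forall fun y => ?_)
    simp [mul_sub]
  rw [h1, abs_mul, abs_of_pos (four_pos (α := ℝ)), mul_assoc, Finset.sum_mul]
  refine mul_le_mul_of_nonneg_left ((Finset.abs_sum_le_sum_abs _ _).trans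
    (Finset.sum_le_sum fun k _ => ?_)) (by norm_num)
  have := abs_real_inner_le_norm (e.D.F.toH 0 _ ⟨_, mem_triv (s k) (.of_compactSpace _)⟩)
    (e.D.F.toH 0 _ ⟨_, mem_triv (sm_ζ he k) (.of_compactSpace _)⟩)
  rw [Pre.inner_toH, Pre.norm_toH, Pre.norm_toH, mul_comm] at this
  exact this.trans (mul_le_mul_of_nonneg_left ((Finset.single_le_sum
    (f := fun i => e.D.F.nrm 0 (v.a i - v'.a i)) (fun _ _ => nrm_nonneg _ _) (Finset.mem_univ k)).trans
    (le_add_of_nonneg_right (nrm_nonneg _ _))) (n0 k))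

end Crest.Agent.X212.Dr9
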