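import Crest.Agent.X212.Dr9.Hol

/-!
# Row 212, SW-DRIFT (helper9): the holonomy does not drift
-/

set_option autoImplicit false
set_option linter.unusedSectionVars false
noncomputable section
open scoped Manifold ContDiff Topology InnerProductSpace
open MeasureTheory Set Function Filter

namespace Crest.Agent.X212.Dr9
open An Sw Sob92 Cyf70 Sw.En3 Pb50 Sep15.S

/-- a uniformly locally finite set has long gaps -/
theorem gaps {α : Type*} {H : α → ℝ} {V : Set α} {n : ℕ}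
    (hf : ∀ r, {v ∈ V | |H v - r| ≤ 1}.Finite) (hn : ∀ r, {v ∈ V | |H v - r| ≤ 1}.ncard ≤ n)
    (A : ℝ) (N : ℕ) : (N : ℝ) / 2 ≤
      volume.real (Ico A (A + N) \ ⋃ v ∈ V, Metric.ball (H v) (4 * (n + 1 : ℝ))⁻¹) := by
  have d0 : 0 < (4 * (n + 1 : ℝ))⁻¹ := by positivity
  have d1 : (4 * (n + 1 : ℝ))⁻¹ * (4 * (n + 1)) = 1 := inv_mul_cancel₀ (by positivity)
  have n0 : (0 : ℝ) ≤ n := n.cast_nonneg
  generalize (4 * (n + 1 : ℝ))⁻¹ = δ at *
  have hS : MeasurableSet (⋃ v ∈ V, Metric.ball (H v) δ) :=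
    (isOpen_biUnion fun _ _ => Metric.isOpen_ball).measurableSet
  have fin : ∀ a b : ℝ, ∀ S, volume (Ico a b \ S) ≠ ⊤ := fun a b S =>
    ne_top_of_le_ne_top measure_Ico_lt_top.ne (measure_mono sdiff_subset)
  induction N with
  | zero => simp
  | succ N ih =>
    have h1 := measureReal_inter_add_sdiff (μ := volume) (s := Ico (A + N) (A + N + 1)) hS
      measure_Ico_lt_top.ne
    have h2 : Ico (A + N) (A + N + 1) ∩ ⋃ v ∈ V, Metric.ball (H v) δ ⊆
        ⋃ v ∈ (hf (A + N + 1 / 2)).toFinset, Metric.ball (H v) δ := by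
      rintro r ⟨hr, hv⟩
      obtain ⟨v, hv, h⟩ := mem_iUnion₂.1 hv
      refine mem_iUnion₂.2 ⟨v, (Finite.mem_toFinset _).2 ⟨hv, ?_⟩, h⟩
      rw [Metric.mem_ball, Real.dist_eq, abs_lt] at h
      rw [abs_le]
      constructor <;> nlinarith [hr.1, hr.2]
    have h3 := (measureReal_mono (μ := volume) h2 (measure_biUnion_ne_top (Finset.finite_toSet _)
      fun _ _ => measure_ball_lt_top.ne)).trans (measureReal_biUnion_finset_le _ _)
    have h4 : ((hf (A + N + 1 / 2)).toFinset.card : ℝ) ≤ n := by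
      rw [← ncard_eq_toFinset_card _ (hf _)]; exact_mod_cast hn _
    simp only [Real.volume_real_ball d0.le, Finset.sum_const, nsmul_eq_mul] at h3
    rw [Real.volume_real_Ico_of_le (by linarith)] at h1
    rw [Nat.cast_succ, ← add_assoc, ← Ico_union_Ico_eq_Ico (b := A + N) (by simp) (by simp),
      union_sdiff_distrib, measureReal_union (Ico_disjoint_Ico_same.mono sdiff_subset sdiff_subset)
        (measurableSet_Ico.diff hS) (fin _ _ _) (fin _ _ _)]
    nlinarith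

/-- a function that moves only far from such a set -/
theorem move {α : Type*} {H : α → ℝ} {V : Set α} {n : ℕ}
    (hf : ∀ r, {v ∈ V | |H v - r| ≤ 1}.Finite) (hn : ∀ r, {v ∈ V | |H v - r| ≤ 1}.ncard ≤ n)
    {J : Set ℝ} (hJ : IsOpen J) (hc : J.OrdConnected) {h h' g : ℝ → ℝ}
    (hd : ∀ t ∈ J, HasDerivAt h (h' t) t)
    (hb : ∀ t ∈ J, (∀ v ∈ V, (4 * (n + 1 : ℝ))⁻¹ ≤ |h t - H v|) → |h' t| ≤ g t) {B : ℝ} (B0 : 0 ≤ B)
    (hB : ∫⁻ t in J, ENNReal.ofReal (g t) ≤ ENNReal.ofReal B) {t t' : ℝ} (ht : t ∈ J)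
    (ht' : t' ∈ J) : |h t - h t'| ≤ 2 * B + 1 := by
  wlog hl : h t ≤ h t' generalizing t t'
  · rw [abs_sub_comm]; exact this ht' ht (le_of_not_ge hl)
  have h1 := gaps hf hn (h t) ⌊h t' - h t⌋₊
  have co : ContinuousOn h J := fun t ht => (hd t ht).continuousAt.continuousWithinAt
  set S := ⋃ v ∈ V, Metric.ball (H v) (4 * (n + 1 : ℝ))⁻¹
  have hm : MeasurableSet (J \ (J ∩ h ⁻¹' S)) := hJ.measurableSet.diff
    (co.isOpen_inter_preimage hJ (isOpen_biUnion fun _ _ => Metric.isOpen_ball)).measurableSet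
  have h2 := addHaar_image_le_lintegral_abs_det_fderiv volume hm
    fun t ht => (hd t ht.1).hasDerivWithinAt.hasFDerivWithinAt
  have h3 : Ico (h t) (h t + ⌊h t' - h t⌋₊) \ S ⊆ h '' (J \ (J ∩ h ⁻¹' S)) := fun r hr => by
    obtain ⟨τ, h3, rfl⟩ := hc.isPreconnected.intermediate_value ht ht' co
      ⟨hr.1.1, by linarith [hr.1.2, Nat.floor_le (sub_nonneg.2 hl)]⟩
    exact ⟨τ, ⟨h3, fun h => hr.2 h.2⟩, rfl⟩
  have h4 := (measure_mono h3).trans (h2.trans ((setLIntegral_mono' hm fun τ hτ =>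
    ENNReal.ofReal_le_ofReal ?_).trans ((lintegral_mono_set sdiff_subset).trans hB)))
  · have := h1.trans (ENNReal.toReal_le_of_le_ofReal B0 h4)
    rw [abs_sub_comm, abs_of_nonneg (sub_nonneg.2 hl)]
    linarith [Nat.lt_floor_add_one (h t' - h t)]
  · rw [ContinuousLinearMap.det_toSpanSingleton]
    exact hb τ hτ.1 fun v hv => le_of_not_gt fun h => hτ.2 ⟨hτ.1, mem_iUnion₂.2 ⟨v, hv, h⟩⟩

variable {κ lam ν : Type} [Fintype κ] [Fintype lam] [Fintype ν] [DecidableEq ν] {e : En3 κ lam ν}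

theorem dist_mono {j k : ℕ} (h : j ≤ k) (v v' : e.YC) : dist j v v' ≤ dist k v v' :=
  add_le_add (Finset.sum_le_sum fun _ _ => nrm_mono h _) (nrm_mono h _)

/-- on slices of small gradient the holonomy is close to that of a representative -/
theorem near (hP : PsyStmt κ lam ν) (he : e.OK) (hw : 0 < e.w) {V : Set e.YC} (hV : Rs V) (C : ℝ)
    {η δ : ℝ} (hη : 0 < η) (hδ : 0 < δ) : ∃ ε > 0, ∀ v : e.YC, e.cyl.Adm (fz v) →
      (∀ y, ‖v.Φ y‖ ≤ C) → η ≤ nm v → gn v ≤ ε → ∃ v₁ ∈ V, |hol v - hol v₁| < δ := by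
  by_contra! h
  choose v h1 h2 h3 h4 h5 using fun n : ℕ => h (1 / (n + 1)) (by positivity)
  obtain ⟨v₀, v', c0, ev, hd, -⟩ := hP.ps e he hw C ℕ (hyperfilter ℕ) v (fun n => ⟨h1 n, h2 n⟩)
    ((squeeze_zero (fun n => gn_nonneg hw.le _) h4 tendsto_one_div_add_atTop_nhds_zero_nat).mono_left
      (Nat.cofinite_eq_atTop ▸ hyperfilter_le_cofinite))
  obtain ⟨K, K0, hK⟩ := hol_lip he
  obtain ⟨n, k1, k2⟩ := (((hd.const_mul K).eventually_lt_const (by simpa using hδ)).and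
    (hd.eventually_lt_const (Real.sqrt_pos.2 hη))).exists
  have a1 := Eqv.adm he (h1 n) (ev n)
  have a2 := Eqv.nm he (ev n)
  obtain ⟨g, hg, e1⟩ := ev n
  have hs : Gau e.Y.I fun y => star (g y) := ⟨fun y => sa_star (hg.1 y), fun y => by rw [norm_star, hg.2]⟩
  have e2 := sl_act (s := 0) (fz v₀) fun y => (gau_fst hs).1 (y, 0)
  have c1 := Eqv.crit he c0 ⟨_, hs, e2⟩
  obtain ⟨v₂, hv, e3⟩ := hV.all _ c1 (by
    by_contra! h
    have h0 : v₀.Φ = 0 := funext fun y => norm_eq_zero.1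
      ((norm_act he.cyl (c := fz v₀) (u := fun x : e.Y.M × ℝ => star (g x.1)) (x := (y, 0)) (hs.2 y)).symm.trans
        (norm_eq_zero.2 (h y)))
    have : e.D.F.nrm 0 (v' n).Φ ≤ dist 0 (v' n) v₀ := by
      rw [En3.dist, h0, sub_zero]
      exact le_add_of_nonneg_left (Finset.sum_nonneg fun _ _ => nrm_nonneg _ _)
    have h6 := (this.trans (dist_mono zero_le_one _ _)).trans_lt k2
    rw [nrm_eq, Real.sqrt_lt_sqrt_iff (n2_nonneg _ _)] at h6
    exact (h3 n).not_gt (a2 ▸ h6))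
  refine (h5 n v₂ hv).not_gt (lt_of_le_of_lt ?_ k1)
  refine le_trans (le_of_eq ?_) ((hK _ _ a1 c0.1).trans
    (mul_le_mul_of_nonneg_left (dist_mono zero_le_one _ _) K0))
  rw [hol_eq0 he c1.1 e3, hol_act he c0.1 hs.1 e2, hol_act he (h1 n) hg.1 e1]
  simp only [th_star _ (hg.1 _), mul_neg, Finset.sum_neg_distrib, integral_neg]
  congr 1
  ring

/-- **SW-DRIFT** -/
theorem drift (hP : PsyStmt κ lam ν) : DriftStmt κ lam ν := by
  intro e V he hw hV C η hη
  obtain ⟨n, hn⟩ := hV.unif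
  obtain ⟨ε, e0, h1⟩ := near hP he hw hV C hη (δ := (4 * (n + 1 : ℝ))⁻¹) (by positivity)
  obtain ⟨K, K0, h2⟩ := hol_der_le he C
  have p0 : 0 ≤ K * (ε⁻¹ + 1) := by positivity
  refine ⟨2 * (K * (ε⁻¹ + 1) * |C|) + 1, fun c p p' ha hC hs hE hη t ht t' ht' => ?_⟩
  refine move (H := hol) (g := fun t => K * (ε⁻¹ + 1) * gn (sl c t))
    (fun r => (hV.fin (|r| + 1)).subset fun v hv => ⟨hv.1, ?_⟩) hn (isOpen_Jv p p')
    (ordConnected_Jv p p') (fun t ht => hol_der he (isOpen_Jv p p') ha ht) (fun t ht h => ?_)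
    (by positivity) ?_ ht ht'
  · linarith [abs_sub_abs_le_abs_sub (hol v) r, hv.2]
  · have a := adm_sl (isOpen_Jv p p') ha ht
    have h3 : ε < gn (sl c t) := lt_of_not_ge fun h3 =>
      let ⟨v, hv, h4⟩ := h1 _ a (fun y => hs (y, t) ⟨trivial, ht⟩) (hη t ht) h3
      (h v hv).not_gt h4
    refine (h2 c t a fun y => hC _ ⟨trivial, ht⟩).trans ?_
    rw [mul_assoc]
    refine mul_le_mul_of_nonneg_left ?_ K0
    nlinarith [mul_inv_cancel₀ e0.ne', inv_pos.2 e0]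
  · simp only [ENNReal.ofReal_mul p0]
    rw [lintegral_const_mul' _ _ ENNReal.ofReal_ne_top]
    exact mul_le_mul_right (hE.trans (ENNReal.ofReal_le_ofReal (le_abs_self C))) _

end Crest.Agent.X212.Dr9
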